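import Crest.Agent.X262.Lat.UDefs
import Crest.Agent.X262.Man.PM

/-!
# Row 262, LAT (helper24): Chern forms represent the classes `h.c1`

* `evC v` : the value of a complex form on two vectors; `evC_sf` : the value of `tr (Q dQ dQ)`;
* `chF Q` : the real Chern form, `rcl_chF`;
* `p3Stmt : Lat.P3Stmt`;
* `exists_om` : the Fubini-Study form.
-/

set_option autoImplicit false
set_option linter.unusedSectionVars false

open Set Filter Topology Module
open scoped Manifold ContDiff ComplexConjugate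

noncomputable section

namespace Crest.Agent.X262.LatQ

open Crest.Agent.R208.F Crest.Agent.R208.FI Crest.Agent.R208.CW Crest.Agent.R208.T
open Crest.Agent.X262.Man Crest.Agent.X262.Lat
open Crest.Agent.R275.Geo (Cn Atl)
open Crest.Agent.R240 (E4)

section ev

variable {V : Type} [NormedAddCommGroup V] [NormedSpace ℝ V] [FiniteDimensional ℝ V]
  {n : Type} [Fintype n] [DecidableEq n] {Q : V → Matrix n n ℂ} {x : V} {X : Set V} {d : ℕ}

/-- the value of a complex form on two vectors -/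
def evC (v : Fin 2 → V) : CF V →ₗ[ℂ] ℂ where
  toFun c := ⟨evA V 2 c.re v, evA V 2 c.im v⟩
  map_add' a b := Complex.ext (by simp) (by simp)
  map_smul' z a := Complex.ext (by simp) (by simp)

theorem evC_re (v : Fin 2 → V) (c : CF V) : (evC v c).re = evA V 2 c.re v := rfl

theorem evA_io_io (l l' : Dual ℝ V) (v : Fin 2 → V) :
    evA V 2 (io l * io l') v = l (v 0) * l' (v 1) - l (v 1) * l' (v 0) := by
  rw [show io l * io l' = ExteriorAlgebra.ιMulti ℝ 2 ![l, l'] by
    simp [ExteriorAlgebra.ιMulti_apply], evA_iMulti, Matrix.det_fin_two]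
  simp [mul_comm]

theorem evC_dz (l l' : V →L[ℝ] ℂ) (v : Fin 2 → V) :
    evC v (dz l * dz l') = l (v 0) * l' (v 1) - l (v 1) * l' (v 0) := by
  refine Complex.ext ?_ ?_
  · change evA V 2 (io (reD l) * io (reD l') - io (imD l) * io (imD l')) v = _
    rw [map_sub, AlternatingMap.sub_apply, evA_io_io, evA_io_io]
    simp only [reD_apply, imD_apply, Complex.sub_re, Complex.mul_re]
    ring
  · change evA V 2 (io (reD l) * io (imD l') + io (imD l) * io (reD l')) v = _
    rw [map_add, AlternatingMap.add_apply, evA_io_io, evA_io_io]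
    simp only [reD_apply, imD_apply, Complex.sub_im, Complex.mul_im]
    ring

/-- the derivative of a field of matrices -/
def dm (Q : V → Matrix n n ℂ) (x v : V) : Matrix n n ℂ :=
  fun i j => fderiv ℝ (fun y => Q y i j) x v

theorem evC_sf (h : SM 1 Q x) (u v : V) : evC ![u, v] (sf 1 Q x) =
    (Q x * (dm Q x u * dm Q x v - dm Q x v * dm Q x u)).trace := by
  have h1 : ∀ a b, DD Q x a b = dz (fderiv ℝ (fun y => Q y a b) x) := fun a b =>
    dC_fun ((h a b).differentiableAt one_ne_zero).hasFDerivAt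
  simp only [sf, mul_one, pow_two, Matrix.trace, Matrix.diag_apply, Matrix.mul_apply, h1, hat,
    Matrix.map_apply, map_sum, ← Algebra.smul_def, map_smul, evC_dz, Matrix.sub_apply, dm,
    smul_eq_mul, Finset.sum_sub_distrib, Matrix.cons_val_zero, Matrix.cons_val_one]

/-- the real Chern form -/
def chF (Q : V → Matrix n n ℂ) : V → Ext V := reF (Lat.kap • sf 1 Q)

theorem hom_chF (Q : V → Matrix n n ℂ) : Hom 2 (chF Q) := fun x =>
  ((degC_sf 1 Q x).csmul Lat.kap).1

theorem ec_chF (h : IdF X Q) : EC X (chF Q) :=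
  have h1 := (mem_Z_iff.1 ((Z X).smul_mem (sf_mem_Z_gen h 1) Lat.kap)).1
  ⟨h1.1, h1.2.1, h1.2.2⟩

theorem evA_chF (h : SM 1 Q x) (u v : V) : evA V 2 (chF Q x) ![u, v] =
    (Lat.kap * (Q x * (dm Q x u * dm Q x v - dm Q x v * dm Q x u)).trace).re := by
  rw [← evC_sf h, ← smul_eq_mul, ← map_smul]
  rfl

theorem pull_chF {V' : Type} [NormedAddCommGroup V'] [NormedSpace ℝ V'] [FiniteDimensional ℝ V']
    {f : V' → V} {y : V'} (hf : ContDiffAt ℝ 2 f y) (h : SM 1 Q (f y)) :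
    pull f (chF Q) y = chF (fun z => Q (f z)) y := by
  change (pbC _ (Lat.kap • sf 1 Q (f y))).re = (Lat.kap • sf 1 (fun z => Q (f z)) y).re
  rw [pbC_smul, ← pullC_sf hf h]
  rfl

/-- a real class is the class of the real part -/
theorem rcl_reF {om : V → CF V} (h : om ∈ Z X) (hc : H.conj X (cls om h) = cls om h)
    (h' : EC X (reF om)) : rcl h' = cls om h := by
  obtain ⟨-, h4, h5, h6⟩ := mem_Z_iff.1 h
  have h1 : cls om h = rcl h' + Complex.I • rcl ⟨h4, h5, h6⟩ := by rw [← cls_eq_rcl]; rfl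
  rw [h1, map_add, H.conj_smul, conj_rcl, conj_rcl, Complex.conj_I, neg_smul, add_right_inj,
    neg_eq_iff_add_eq_zero, ← two_smul ℂ, smul_eq_zero] at hc
  rw [h1, hc.resolve_left two_ne_zero, add_zero]

theorem rcl_chF (hX : Sub d X) (h : Ln X Q) : rcl (ec_chF h.idf) = h.c1 := by
  have h1 := h.conj_c1 hX
  rw [Ln.c1, ← cls_smul] at h1 ⊢
  exact rcl_reF _ h1 _

end ev

theorem sm_of_contMDiff {M : Type} [TopologicalSpace M] {A : Atl 2 M} {f : Mf A → ℂ}
    (h : ContMDiff 𝓘(ℝ, E4) 𝓘(ℝ, ℂ) ∞ f) : A.Sm f := fun k => by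
  have h1 := contMDiffOn_iff_contDiffOn.1 (h.comp_contMDiffOn
    (contMDiffOn_symm_of_mem_maximalAtlas (I := 𝓘(ℝ, E4)) (n := ∞) (e := rch A k)
      (IsManifold.subset_maximalAtlas ⟨k, rfl⟩)))
  refine (h1.comp (cL 2).symm.contDiff.contDiffOn fun z hz => ?_).congr fun z _ => ?_
  · rwa [rch_target, mem_preimage, ContinuousLinearEquiv.apply_symm_apply]
  · simp only [Function.comp_apply, rch_symm, ContinuousLinearEquiv.apply_symm_apply]

/-- **Chern forms represent the classes `h.c1`** -/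
theorem p3Stmt : P3Stmt := by
  intro M _ _ _ A E _ _ _ ε N p a hp ha
  let Q : E → Matrix (Fin N) (Fin N) ℂ := fun y => Matrix.of fun i j => ε.amb (fun x => p x i j) y
  have h1 : ∀ x, Q (ε.j x) = p x := fun x => Matrix.ext fun i j =>
    ε.amb_j (sm_of_contMDiff (hp.smooth i j)) x
  have h2 : ∀ y, SM ∞ Q y := fun y i j => (ε.contDiff_amb _).contDiffAt
  have h : Ln ε.X Q := ⟨⟨fun y _ => h2 y, ε.forall_X.2 fun x => h1 x ▸ hp.idem x⟩,
    ε.forall_X.2 fun x => h1 x ▸ hp.herm x, ε.forall_X.2 fun x => h1 x ▸ hp.rank x⟩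
  refine ⟨Q, h, _, ec_chF h.idf, hom_chF Q, fun x u v => ?_, rcl_chF ε.sub h⟩
  have h3 : cL 2 (rch A (ci A x) x) ∈ (A.e (ci A x)).target := (rch A _).map_source (mem_ci A x)
  have h4 : ContDiffAt ℝ ∞ (ε.rpar (ci A x)) (rch A (ci A x) x) :=
    (ε.contDiffAt_par h3).comp _ (cL 2).contDiff.contDiffAt
  have h5 : (fun z => Q (ε.rpar (ci A x) z)) = fun z => p ((chartAt E4 x).symm z) :=
    funext fun z => h1 _
  have h6 : Q (ε.rpar (ci A x) (rch A (ci A x) x)) = p x :=
    (congrFun h5 _).trans (congrArg p ((chartAt E4 x).left_inv (mem_chart_source E4 x)))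
  rw [pull_chF (h4.of_le two_le) ((h2 _).of_le one_le_inf),
    evA_chF (((h2 _).comp h4).of_le one_le_inf), h5, h6, ha x u v]
  rfl

/-! ### the Fubini-Study form -/

section fs

open Crest.Agent.R257.PN_835 (HC nsq pm pm_apply nsq_pos)
open Crest.Agent.X277.Lef Crest.Agent.X277.AN.G1
open scoped Matrix

theorem ln_pm {N : ℕ} {Z : HC N} (hZ : Z ≠ 0) :
    pm Z * pm Z = pm Z ∧ (pm Z)ᴴ = pm Z ∧ (pm Z).trace = 1 := by
  have h0 : (nsq Z : ℂ) ≠ 0 := by exact_mod_cast (nsq_pos hZ).ne'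
  refine ⟨Matrix.ext fun a b => ?_, Matrix.ext fun a b => ?_, ?_⟩
  · rw [Matrix.mul_apply, Finset.sum_congr rfl fun k _ => show pm Z a k * pm Z k b =
      pm Z a b / nsq Z * (Z k * conj (Z k)) by simp only [pm_apply]; ring, ← Finset.mul_sum,
      ← nsq_eq, div_mul_cancel₀ _ h0]
  · simp [pm_apply, mul_comm]
  · simp only [Matrix.trace, Matrix.diag_apply, pm_apply, ← Finset.sum_div, ← nsq_eq, div_self h0]

variable {F : Type} [Field F] [Algebra ℂ F] {n : ℕ} (P : PModel ℂ F)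

theorem sm_toM {N : ℕ} (q : Hm N) : SM ∞ toM q := fun a b => (contDiff_entry (a, b)).contDiffAt

/-- the tautological line -/
theorem ln_toM : Ln (XP P) toM := by
  have h : ∀ q ∈ XP P, ∃ Z, Z ≠ 0 ∧ pm Z = toM q := forall_mem_range.2 fun x => x.val.2
  refine ⟨⟨fun q _ => sm_toM q, fun q hq => ?_⟩, fun q hq => ?_, fun q hq => ?_⟩ <;>
    obtain ⟨Z, hZ, h1⟩ := h q hq <;> rw [← h1]
  exacts [(ln_pm hZ).1, (ln_pm hZ).2.1, (ln_pm hZ).2.2]

/-- the Fubini-Study form -/
def fs (N : ℕ) : Hm N → Ext (Hm N) := imF (sf 1 toM)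

theorem hom_fs (N : ℕ) : Hom 2 (fs N) := fun x => (degC_sf 1 toM x).2

theorem ec_fs : EC (XP P) (fs P.N) :=
  have h1 := (mem_Z_iff.1 (sf_mem_Z_gen (ln_toM P).idf 1)).2
  ⟨h1.1, h1.2.1, h1.2.2⟩

variable {P}

/-- the Fubini-Study form in a chart -/
theorem exists_pull_fs (X : AnP P n) {i : X.A.ι} {z : Cn n} (hz : z ∈ (X.A.e i).target) :
    ∃ (r : ℝ) (l : Fin (P.N + 1) → Cn n →L[ℂ] ℂ), 0 < r ∧ (∀ v, (∀ k, l k v = 0) → v = 0) ∧
      pullC ((emb X).par i) (sf 1 toM) z = ⟨0, r • herm fun k => (l k).restrictScalars ℝ⟩ := by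
  obtain ⟨x, hx, rfl⟩ : ∃ x ∈ (X.A.e i).source, X.A.e i x = z :=
    ⟨_, (X.A.e i).map_target hz, (X.A.e i).right_inv hz⟩
  have hi := X.sub i x hx
  let Z : Cn n → HC P.N := fun w j => X.rd i (ev (P.y j / P.y (X.r i))) w
  let Z' : Fin (P.N + 1) → Cn n →L[ℂ] ℂ := fun j => fderiv ℂ (fun w => Z w j) (X.A.e i x)
  have h1 : ∀ j, HasFDerivAt (fun w => Z w j) ((Z' j).restrictScalars ℝ) (X.A.e i x) := fun j =>
    (AnP.diffAt hx (y_mem hi j)).hasFDerivAt.restrictScalars ℝ
  have h2 : Z (X.A.e i x) = fun j => ev (P.y j / P.y (X.r i)) x :=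
    funext fun j => AnP.rd_self hx _
  have h3 : Z (X.A.e i x) ≠ 0 := h2 ▸ ev_y_ne hi
  have h4 : (fun w => toM ((emb X).par i w)) =ᶠ[𝓝 (X.A.e i x)] fun w => pm (Z w) := by
    filter_upwards [(X.A.e i).open_target.mem_nhds hz] with w hw
    exact congrArg toM (jP_eq (X.sub i _ ((X.A.e i).map_target hw)))
  have h5 : DD (fun w => toM ((emb X).par i w)) (X.A.e i x) = DD (fun w => pm (Z w)) (X.A.e i x) :=
    Matrix.ext fun a b => dC_congr (h4.mono fun w hw => by simp only [hw])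
  have h6 := nsq_pos h3
  refine ⟨2 / nsq (Z (X.A.e i x)), fun k => Z' k - (Z (X.A.e i x) k / nsq (Z (X.A.e i x))) •
    ∑ j, conj (Z (X.A.e i x) j) • Z' j, by positivity, fun v hv => ?_, ?_⟩
  · have h7 : ∀ j, Z' j v = X.dv i x v (P.y j / P.y (X.r i)) := fun _ => rfl
    have h8 := hv (X.r i)
    have h11 : Z (X.A.e i x) (X.r i) = 1 := by
      rw [h2]
      simp only [div_self (P.y_ne _)]
      exact (lp x).v_one
    rw [sub_apply, h7, div_self (P.y_ne _), ← map_one (algebraMap ℂ F),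
      AnP.dv_alg, zero_sub, neg_eq_zero, smul_apply, smul_eq_zero, h11] at h8
    have h9 := h8.resolve_left (one_div_ne_zero (by exact_mod_cast h6.ne'))
    refine AnP.eq_zero_of_dv hx hi fun j => ?_
    have h10 := hv j
    rwa [sub_apply, smul_apply, h9, smul_zero, sub_zero] at h10
  · have h7 : sf 1 (fun w => toM ((emb X).par i w)) (X.A.e i x) =
        sf 1 (fun w => pm (Z w)) (X.A.e i x) := by rw [sf, sf, h5, h4.eq_of_nhds]
    rw [pullC_sf (((emb X).contDiffAt_par hz).of_le two_le) ((sm_toM _).of_le one_le_inf), h7,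
      sf_pm h1 h3]
    congr 3
    funext k
    ext v
    simp [hz_apply]

theorem fs_pos (X : AnP P n) (i : X.A.ι) (z : Cn n) (hz : z ∈ (X.A.e i).target) :
    0 < topC n (pull ((emb X).par i) (fs P.N ^ n) z) := by
  obtain ⟨r, l, h1, h2, h3⟩ := exists_pull_fs X hz
  have h4 : pull ((emb X).par i) (fs P.N) z = _ := congrArg Cx.im h3
  rw [show pull ((emb X).par i) (fs P.N ^ n) z = pull ((emb X).par i) (fs P.N) z ^ n from
    map_pow (pb _) _ _, h4, smul_pow, map_smul]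
  exact mul_pos (pow_pos h1 n) (topC_herm_pos h2)

theorem exists_om (P : PModel ℂ F) (X : AnP P 2) : ∃ om, EC (XP P) om ∧ Hom 2 om ∧
    ∀ i, ∀ z ∈ (X.A.e i).target, 0 < topC 2 (pull ((emb X).par i) (om * om) z) :=
  ⟨_, ec_fs P, hom_fs _, fun i z hz => pow_two (fs P.N) ▸ fs_pos X i z hz⟩

end fs

end Crest.Agent.X262.LatQ
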